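import Vale.Agent.P113.Main

/-! Halting detection by particle trajectories of forced Navier-Stokes flows from rest. -/

namespace Vale.Agent.Results.P113.ForcedNSHalting

open Set Vale.Agent.P113

/-- There are a point `a` and an open set `O` of the flat torus such that for every computable
viscosity `ν > 0` there is a force compiler with the property: for every machine `M` and every
input `w` the Navier-Stokes system from rest with the compiled force has a global smooth solution,
unique among classical solutions on each `[0,T]`, whose trajectory from `a` meets `O` at some time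
`t ≥ 0` if and only if `M` halts on `w`. -/
theorem result : ∃ (a : T3) (O : Set T3), IsOpen O ∧
    ∀ ν : ℝ, 0 < ν → IsComputableReal ν →
    ∃ (compile : MachineCode × List ℕ → Nat.Partrec.Code)
      (f : (M : Machine) → List (Fin (M.numSymbols + 1)) → ℝ → R3 → R3),
      IsForceCompiler compile f ∧
      ∀ (M : Machine) (w : List (Fin (M.numSymbols + 1))),
        ∃ (u : ℝ → R3 → R3) (p : ℝ → R3 → ℝ),
          SmoothInSpacetime u ∧ SmoothInSpacetime p ∧
          IsClassicalSolution ν (f M w) (Ici 0) u p ∧
          (∀ T : ℝ, 0 < T → ∀ v q, IsClassicalSolution ν (f M w) (Icc 0 T) v q →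
            ∀ t ∈ Icc 0 T, v t = u t ∧ q t = p t) ∧
          (∃ X, IsTrajectory u a X) ∧
          (∀ X, IsTrajectory u a X → ((∃ t, 0 ≤ t ∧ toTorus (X t) ∈ O) ↔ M.HaltsOn w)) := by
  refine ⟨0, target, isOpen_target, fun ν hν hνc => ?_⟩
  obtain ⟨compile, hcomp, hprog⟩ := exists_compiler hνc
  refine ⟨compile, fun M w => frc ν (amp M.code) (Encodable.encode (w.map Fin.val)), ?_, ?_⟩
  · exact
      { computable := hcomp
        smooth := fun M w => smoothInSpacetime_of_contDiff (contDiff_frc (abs_amp_le M.code) ν _)
        space_periodic := fun M w t _ => periodic_frc (abs_amp_le M.code) ν _ t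
        program := fun M w => hprog M.code (w.map Fin.val)
        eventually := ⟨1, zero_le_one,
          fun M => ⟨1, one_pos, fun w t ht => frc_eventually_periodic ν _ _ ht⟩,
          fun M w w' t ht => frc_eventually_independent ν _ _ _ ht⟩ }
  · intro M w
    have ha := abs_amp_le M.code
    refine ⟨vel (amp M.code) (Encodable.encode (w.map Fin.val)), fun _ _ => 0,
      smoothInSpacetime_of_contDiff (contDiff_vel ha _),
      smoothInSpacetime_of_contDiff contDiff_const,
      isClassicalSolution_vel ha ν _ (uniqueDiffOn_Ici 0), ?_, exists_trajectory _ _, ?_⟩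
    · intro T hT v q hv
      exact uniqueness hν.le hT (isClassicalSolution_vel ha ν _ (uniqueDiffOn_Icc hT)) hv
    · intro X hX
      constructor
      · rintro ⟨t, ht, hmem⟩
        by_contra hh
        exact not_mem_target (amp_eq_zero hh) hX ht hmem
      · intro hh
        exact exists_mem_target (amp_pos hh) hX

end Vale.Agent.Results.P113.ForcedNSHalting
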